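import Vale.Agent.P011.D4W.H619.Step
import Vale.Agent.P011.D4W.H7.Swap
import Vale.Agent.P011.D4W.H7.F4

/-!
Block D4W (helper619): the congruence of the centraliser of the frame `(i, l, j)`, for all the
models.
-/

open NumberField

namespace Vale.Agent.P011.D4W.H619

/-- **Step T.** -/
theorem leSwap {k L : Type} [Field k] [NumberField k] [Field L] [NumberField L] [Algebra k L]
    (hS : H7.ShortAll k L) : H7.LeSwap k L := by
  intro E _ _ _ _ _ ρ σ ι α a b c q H hX z hz hP
  exact le_swap H H7.trip_swap (fun h _ h1 h2 h3 => H7.stabV_le' hS H hX h h1 h2 h3) hz hP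

end Vale.Agent.P011.D4W.H619
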