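import Vale.Agent.P011.D4W.H684.Top

/-!
Block D4W (helper619): the image of the vector `e₊ l` under the product of an element of the
standard centraliser and of an element of the centraliser of the frame `(i, l, j)`.
-/

open Filter Topology

namespace Vale.Agent.P011.D4W.H619

open Vale.Agent.P011.MPQ Vale.Agent.P011.D4 Vale.Agent.P011.D4.Oct

section G

variable {E : Type} [Field E] {a b c : Eˣ}

/-- The quaternion `x + y (t e₊ + e₋) j`. -/
def Xe (a b : Eˣ) (α t x y : E) : Qt a b :=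
  ⟨x, 0, y * ((t + 1) / 2), y * ((t - 1) / (2 * α))⟩

/-- The image of `e₊ l` under an element of the centraliser of the frame `(i, l, j)`. -/
def V1 (a b c : Eˣ) (α x y : E) : Oct a b c :=
  ⟨⟨0, -(x * y * c) / α, 0, 0⟩,
    ⟨(x ^ 2 - y ^ 2 * c) / 2, (x ^ 2 + y ^ 2 * c) / (2 * α), 0, 0⟩⟩

/-- The image of `e₊ l`. -/
def Gv (a b c : Eˣ) (α q0 q1 q2 x y s t : E) (w : Qt a b) : Oct a b c :=
  t • ⟨Xe a b α q0 x y * (V1 a b c α x y).fst * star (Xe a b α q2 x y),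
    (s * ((x ^ 2 - q0 * b * y ^ 2) * (x ^ 2 - q2 * b * y ^ 2))) •
      (w * (V1 a b c α x y).snd * star (Xe a b α q1 x y))⟩

variable {X : Type} {S : Set (AbsoluteValue E ℝ)} {F : Filter X} {x y s t : X → E}
  {w : X → Qt a b} {x' y' s' t' : E} {w' : Qt a b}

theorem AQ_Xe (α q0 : E) (hx : AE S F x x') (hy : AE S F y y') :
    AQ S F (fun n => Xe a b α q0 (x n) (y n)) (Xe a b α q0 x' y') :=
  ⟨hx, .const _ _ _, hy.mul (.const _ _ _), hy.mul (.const _ _ _)⟩

theorem AO_V1 (α : E) (hx : AE S F x x') (hy : AE S F y y') :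
    AO S F (fun n => V1 a b c α (x n) (y n)) (V1 a b c α x' y') := by
  have hc := AE.const S F (c : E)
  have h1 := (hx.pow 2).sub ((hy.pow 2).mul hc)
  have h2 := (hx.pow 2).add ((hy.pow 2).mul hc)
  exact ⟨⟨.const _ _ _, ((((hx.mul hy).mul hc).neg.mul (.const _ _ α⁻¹)).congr
      (fun v => by simp only [V1, div_eq_mul_inv]) (by simp only [V1, div_eq_mul_inv])),
      .const _ _ _, .const _ _ _⟩,
    ⟨(h1.mul (.const _ _ (2 : E)⁻¹)).congr
      (fun v => by simp only [V1, div_eq_mul_inv]) (by simp only [V1, div_eq_mul_inv]),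
      (h2.mul (.const _ _ (2 * α)⁻¹)).congr
      (fun v => by simp only [V1, div_eq_mul_inv]) (by simp only [V1, div_eq_mul_inv]),
      .const _ _ _, .const _ _ _⟩⟩

theorem AO_Gv (α q0 q1 q2 : E) (hx : AE S F x x') (hy : AE S F y y') (hs : AE S F s s')
    (ht : AE S F t t') (hw : AQ S F w w') :
    AO S F (fun n => Gv a b c α q0 q1 q2 (x n) (y n) (s n) (t n) (w n))
      (Gv a b c α q0 q1 q2 x' y' s' t' w') := by
  have hv := AO_V1 (a := a) (b := b) (c := c) α hx hy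
  have h0 := AQ_Xe (a := a) (b := b) α q0 hx hy
  have h1 := AQ_Xe (a := a) (b := b) α q1 hx hy
  have h2 := AQ_Xe (a := a) (b := b) α q2 hx hy
  have hb := AE.const S F (b : E)
  have c0 := AE.const S F q0
  have c2 := AE.const S F q2
  refine AO.smul ht ⟨(h0.mul hv.1).mul h2.star, AQ.smul ?_ ((hw.mul hv.2).mul h1.star)⟩
  exact hs.mul (((hx.pow 2).sub ((c0.mul hb).mul (hy.pow 2))).mul
    ((hx.pow 2).sub ((c2.mul hb).mul (hy.pow 2))))

theorem Gv_one {α : E} (q0 q1 q2 : E) : Gv a b c α q0 q1 q2 1 0 1 1 1 =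
    ⟨0, ⟨1 / 2, 1 / (2 * α), 0, 0⟩⟩ := by
  apply ext8 <;> simp [Gv, Xe, V1]

theorem Gv_flip {α : E} (h2 : (2 : E) ≠ 0) (hα : α * α = a) {q0 q1 q2 : E}
    (hq : q0 * q1 * q2 = 1) :
    Gv a b c α q0 q1 q2 0 1 ((b : E) ^ 2)⁻¹ (q1 / (b * c)) ⟨0, 0, 1, 0⟩ =
      ⟨0, ⟨1 / 2, 1 / (2 * α), 0, 0⟩⟩ := by
  have hb := b.ne_zero
  have hc := c.ne_zero
  have hα0 : α ≠ 0 := by
    rintro rfl
    rw [mul_zero] at hα
    exact a.ne_zero hα.symm
  have hq1 : q1 ≠ 0 := by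
    rintro rfl
    simp at hq
  apply ext8 <;> simp [Gv, Xe, V1] <;> field_simp
  · linear_combination ((q1 + 1) * α ^ 2 - a * (q1 - 1)) * hq + (q1 - 1) * hα
  · linear_combination 2 * hq

end G

end Vale.Agent.P011.D4W.H619
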