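import Vale.Agent.P011.D4Y.H657.Bas
import Vale.Agent.P011.D4W.H619.Gv

/-!
Block D4W (helper619): the elements `x + y j` of the quaternion algebras `(a, q b)` over `L`.
-/

open NumberField

set_option linter.unusedSectionVars false

namespace Vale.Agent.P011.D4W.H619

open Vale.Agent.P011.MPQ Vale.Agent.P011.D4 Vale.Agent.P011.D4.Oct Vale.Agent.P011.D4X
  Vale.Agent.P011.D4Y

section xq

variable {k L E : Type} [Field k] [Field L] [Field E] [Algebra k L] [Algebra k E] [Algebra L E]
  [IsScalarTower k L E]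

/-- The quaternion `x + y j`. -/
def xq (a b : kˣ) (q : Lˣ) (x y : k) : Qt (up L a) (q * up L b) :=
  ⟨algebraMap k L x, 0, algebraMap k L y, 0⟩

/-- Its norm. -/
def nx (b : kˣ) (q : Lˣ) (x y : k) : L :=
  algebraMap k L x ^ 2 - q * algebraMap k L b * algebraMap k L y ^ 2

theorem nrd_xq (a b : kˣ) (q : Lˣ) (x y : k) : nrd (xq a b q x y) = nx b q x y := by
  simp only [nrd, xq, nx, Units.val_mul]
  change _ - _ - (q : L) * algebraMap k L (b : k) * _ + _ = _
  ring

theorem psiL_xq (α : E) (a b : kˣ) (q : Lˣ) (x y : k) :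
    (psiL α q (xq a b q x y) : Qt (up E a) (up E b)) =
      Xe (up E a) (up E b) α (algebraMap L E (q : L)) (algebraMap k E x) (algebraMap k E y) := by
  apply QuaternionAlgebra.ext
  · simp only [psiL, xq, Xe, ← IsScalarTower.algebraMap_apply]
  · simp only [psiL, xq, Xe, map_zero]
  · simp only [psiL, xq, Xe, map_zero, ← IsScalarTower.algebraMap_apply]
    ring
  · simp only [psiL, xq, Xe, map_zero, ← IsScalarTower.algebraMap_apply]
    ring

theorem qmap_Xe {ρ : E ≃ₐ[k] E} {α : E} (hρ : ρ α = α) (a b : kˣ) (t : E) (x y : k) :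
    qmap ρ (Xe (up E a) (up E b) α t (algebraMap k E x) (algebraMap k E y)) =
      Xe (up E a) (up E b) α (ρ t) (algebraMap k E x) (algebraMap k E y) := by
  apply QuaternionAlgebra.ext
  · simp only [qmap, Xe, ρ.commutes]
  · simp only [qmap, Xe, map_zero]
  · simp only [qmap, Xe, map_mul, map_div₀, map_add, map_one, map_ofNat, ρ.commutes]
  · simp only [qmap, Xe, map_mul, map_div₀, map_sub, map_one, map_ofNat, ρ.commutes, hρ]

/-- The norm from `L` to `k`. -/
def np (b : kˣ) (e1 e2 x y : k) : k :=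
  x ^ 6 - e1 * b * x ^ 4 * y ^ 2 + e2 * b ^ 2 * x ^ 2 * y ^ 4 - b ^ 3 * y ^ 6

end xq

section model

variable {k L E : Type} [Field k] [Field L] [Field E] [Algebra k L] [Algebra k E] [Algebra L E]
  [IsScalarTower k L E] {ρ σ ι : E ≃ₐ[k] E} {α : E} {a b c : kˣ} {q : Lˣ} [NeZero (2 : E)]
  (H : HyI ρ σ ι α a b c q)

include H

theorem exists_e12 : ∃ e1 e2 : k,
    algebraMap k E e1 = algebraMap L E (q : L) + ρ (algebraMap L E (q : L)) +
      ρ (ρ (algebraMap L E (q : L))) ∧
    algebraMap k E e2 = algebraMap L E (q : L) * ρ (algebraMap L E (q : L)) +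
      ρ (algebraMap L E (q : L)) * ρ (ρ (algebraMap L E (q : L))) +
      ρ (ρ (algebraMap L E (q : L))) * algebraMap L E (q : L) := by
  have h0 := H.ιL (q : L)
  have h1 : ι (ρ (algebraMap L E (q : L))) = ρ (algebraMap L E (q : L)) := by
    rw [H.ιρ, h0, H.ρ3]
  have h2 : ι (ρ (ρ (algebraMap L E (q : L)))) = algebraMap L E (q : L) := by
    rw [← h0, H.ι2]
  obtain ⟨e1, he1⟩ := H.fixk (algebraMap L E (q : L) + ρ (algebraMap L E (q : L)) +
      ρ (ρ (algebraMap L E (q : L)))) (by
    rw [map_add, map_add, H.ρ3]; ring) (by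
    rw [map_add, map_add, H.comm, H.comm, H.comm, H.σL]) (by
    rw [map_add, map_add, h0, h1, h2]; ring)
  obtain ⟨e2, he2⟩ := H.fixk (algebraMap L E (q : L) * ρ (algebraMap L E (q : L)) +
      ρ (algebraMap L E (q : L)) * ρ (ρ (algebraMap L E (q : L))) +
      ρ (ρ (algebraMap L E (q : L))) * algebraMap L E (q : L)) (by
    rw [map_add, map_add, map_mul, map_mul, map_mul, H.ρ3]; ring) (by
    rw [map_add, map_add, map_mul, map_mul, map_mul, H.comm, H.comm, H.comm, H.σL]) (by
    rw [map_add, map_add, map_mul, map_mul, map_mul, h0, h1, h2]; ring)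
  exact ⟨e1, e2, he1, he2⟩

omit [NeZero (2 : E)] in
theorem np_eq {e1 e2 : k} (h1 : algebraMap k E e1 = algebraMap L E (q : L) +
      ρ (algebraMap L E (q : L)) + ρ (ρ (algebraMap L E (q : L))))
    (h2 : algebraMap k E e2 = algebraMap L E (q : L) * ρ (algebraMap L E (q : L)) +
      ρ (algebraMap L E (q : L)) * ρ (ρ (algebraMap L E (q : L))) +
      ρ (ρ (algebraMap L E (q : L))) * algebraMap L E (q : L)) (b : kˣ) (x y : k) :
    algebraMap k E (np b e1 e2 x y) = algebraMap L E (nx b q x y) *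
      ρ (algebraMap L E (nx b q x y)) * ρ (ρ (algebraMap L E (nx b q x y))) := by
  have h3 := H.hq
  simp only [np, nx, map_sub, map_add, map_mul, map_pow, ← IsScalarTower.algebraMap_apply,
    AlgEquiv.commutes]
  rw [h1, h2]
  linear_combination ((algebraMap k E (b : k)) ^ 3 * (algebraMap k E y) ^ 6) * h3

/-- The element of the standard centraliser. -/
theorem exists_z1 {e1 e2 : k} (h1 : algebraMap k E e1 = algebraMap L E (q : L) +
      ρ (algebraMap L E (q : L)) + ρ (ρ (algebraMap L E (q : L))))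
    (h2 : algebraMap k E e2 = algebraMap L E (q : L) * ρ (algebraMap L E (q : L)) +
      ρ (algebraMap L E (q : L)) * ρ (ρ (algebraMap L E (q : L))) +
      ρ (ρ (algebraMap L E (q : L))) * algebraMap L E (q : L)) {x0 : Qt a b} {x y s : k}
    (h : nrd x0 * (np b e1 e2 x y * s ^ 2) = 1) :
    ∃ z : ATI ρ σ ι α a b c q, z ∈ stab0I ρ σ ι α a b c q ∧
      (∀ κ : Lˣ, nx b q x y * κ = 1 → IsKapI ρ z.1 κ) ∧ ∀ t : E,
        t • z.1 (V1 (up E a) (up E b) (up E c) α (algebraMap k E x) (algebraMap k E y)) =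
          Gv (up E a) (up E b) (up E c) α (algebraMap L E (q : L)) (ρ (algebraMap L E (q : L)))
            (ρ (ρ (algebraMap L E (q : L)))) (algebraMap k E x) (algebraMap k E y)
            (algebraMap k E s) t (qup E x0) := by
  have hs : s ≠ 0 := by
    rintro rfl
    simp at h
  obtain ⟨z, hz, hk, hy⟩ := exists_zI (c := c) H x0 (xq a b q x y) (Units.mk0 s hs)⁻¹ (by
    rw [nrd_xq, ← np_eq H h1 h2, ← map_mul]
    congr 1
    rw [Units.val_inv_eq_inv_val, Units.val_mk0]
    field_simp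
    linear_combination h)
  refine ⟨z, hz, fun κ hκ => hk κ (by rw [nrd_xq]; exact hκ), fun t => ?_⟩
  rw [hy, zFI, Gv, psiL_xq, qmap_Xe H.ρα, qmap_Xe H.ρα, nrd_xq]
  congr 3
  simp only [nx, map_sub, map_mul, map_pow, ← IsScalarTower.algebraMap_apply, AlgEquiv.commutes,
    Units.val_inv_eq_inv_val, Units.val_mk0, map_inv₀, div_inv_eq_mul]
  change _ = algebraMap k E s * ((algebraMap k E x ^ 2 - algebraMap L E (q : L) *
    algebraMap k E (b : k) * algebraMap k E y ^ 2) * (algebraMap k E x ^ 2 -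
      ρ (ρ (algebraMap L E (q : L))) * algebraMap k E (b : k) * algebraMap k E y ^ 2))
  ring

end model

end Vale.Agent.P011.D4W.H619
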