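import Vale.Agent.P011.D4W.H619.Seq
import Vale.Agent.P011.D4W.H183.Cls
import Vale.Agent.P011.D4X.H691.FinA

/-!
Block D4W (helper619): the classes of the multipliers.
-/

open NumberField IsDedekindDomain Topology Filter

namespace Vale.Agent.P011.D4W.H619

open Vale.Agent.P011.Arith Vale.Agent.P011.MPQ Vale.Agent.P011.D4 Vale.Agent.P011.D4X
  Vale.Agent.P011.D4Y Vale.Agent.P011.D4W.H183

section

variable {L : Type} [Field L] [NumberField L]

/-- The local square classes are open. -/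
theorem ev_LS {X : Type} {F : Filter X} {f : X → L} {w : HeightOneSpectrum (𝓞 L)} {κ0 : Lˣ}
    (h : AE {paAbv (Sum.inl w : PA L)} F f κ0) :
    ∀ᶠ n in F, ∀ κ : Lˣ, (κ : L) = f n → κ * κ0 ∈ LS (w.valuation L) := by
  obtain ⟨δ, hδ, h1⟩ := LSp_of_near (Sum.inl w : Pl L) κ0
  filter_upwards [h.eventually_lt rfl hδ] with n hn κ hκ
  refine h1 κ ?_
  rw [hκ]
  exact hn

/-- The positive elements are open. -/
theorem ev_pos {X : Type} {F : Filter X} {f : X → L} (φ : L →+* ℝ)
    (h : AE {paAbv (Sum.inr (InfinitePlace.mk (Complex.ofRealHom.comp φ)) : PA L)} F f 1) :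
    ∀ᶠ n in F, 0 < φ (f n) := by
  filter_upwards [h.eventually_lt rfl one_pos] with n hn
  have e : paAbv (Sum.inr (InfinitePlace.mk (Complex.ofRealHom.comp φ)) : PA L) (f n - 1) =
      |φ (f n - 1)| := by
    change InfinitePlace.mk (Complex.ofRealHom.comp φ) (f n - 1) = _
    rw [InfinitePlace.apply]
    exact Complex.norm_real _
  rw [e, map_sub, map_one, abs_lt] at hn
  linarith [hn.1]

end

section nx

variable {k L : Type} [Field k] [NumberField k] [Field L] [NumberField L] [Algebra k L]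

theorem AE_nx {X : Type} {F : Filter X} {Q : PA L} {x y : X → k} {x' y' : k} (b : kˣ) (q : Lˣ)
    (hx : AE {paAbv (rsP k Q)} F x x') (hy : AE {paAbv (rsP k Q)} F y y') :
    AE {paAbv Q} F (fun n => nx b q (x n) (y n)) (nx b q x' y') :=
  ((AE_map hx).pow 2).sub ((AE.const _ F ((q : L) * algebraMap k L (b : k))).mul
    ((AE_map hy).pow 2))

omit [NumberField k] [NumberField L] in
theorem nx_one (b : kˣ) (q : Lˣ) : nx b q (1 : k) 0 = 1 := by
  simp [nx]

omit [NumberField k] [NumberField L] in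
theorem nx_flip (b : kˣ) (q : Lˣ) : nx b q (0 : k) 1 = ((q * up L (-b) : Lˣ) : L) := by
  simp [nx]

/-- The class at a bad prime over the flipped prime. -/
theorem not_mem_flip {a b : kˣ} {q κ : Lˣ} {v : HeightOneSpectrum (𝓞 k)}
    {w : HeightOneSpectrum (𝓞 L)} (hb : Bad a q v w)
    (h : κ * (q * up L (-b)) ∈ LS (w.valuation L)) :
    κ ∉ NF (up L a) ⊔ LS (w.valuation L) := by
  intro h1
  apply hb.2.1
  have h2 := mem_of_even hb.1 hb.2.2 a (-b)
  have h3 : q = κ⁻¹ * (κ * (q * up L (-b))) * (up L (-b))⁻¹ := by group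
  rw [h3]
  exact mul_mem (mul_mem (inv_mem h1) (Subgroup.mem_sup_right h)) (inv_mem h2)

/-- The product of the classes at a bad prime over the flipped prime. -/
theorem mem_flip2 {a b c : kˣ} {q κ κ' : Lˣ} {v : HeightOneSpectrum (𝓞 k)}
    {w : HeightOneSpectrum (𝓞 L)} (hb : Bad a q v w)
    (h : κ * (q * up L (-b)) ∈ LS (w.valuation L))
    (h' : κ' * (q * up L (-c)) ∈ LS (w.valuation L)) :
    κ * κ' ∈ NF (up L a) ⊔ LS (w.valuation L) :=
  mul_mem_of_not (not_mem_flip hb h) (not_mem_flip hb h')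

end nx

end Vale.Agent.P011.D4W.H619
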