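import Vale.Agent.P011.D4W.H684.Top
import Vale.Agent.P011.D4W.H183.NrdNear

/-!
Block D4W (helper619): restriction of places, and approximation sequences.
-/

open NumberField IsDedekindDomain Topology Filter

namespace Vale.Agent.P011.D4W.H619

open Vale.Agent.P011.Arith Vale.Agent.P011.MPQ Vale.Agent.P011.D4 Vale.Agent.P011.D4X
  Vale.Agent.P011.D4Y Vale.Agent.P011.D4W.H183

section rs

variable {k K : Type} [Field k] [NumberField k] [Field K] [NumberField K] [Algebra k K]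

theorem exists_delta_over {v : HeightOneSpectrum (𝓞 k)} {P : HeightOneSpectrum (𝓞 K)}
    (hP : P.asIdeal.comap (algebraMap (𝓞 k) (𝓞 K)) = v.asIdeal) {ε : ℝ} (hε : 0 < ε) :
    ∃ δ : ℝ, 0 < δ ∧ ∀ z : k, plAbv (Sum.inl v : Pl k) z < δ →
      plAbv (Sum.inl P : Pl K) (algebraMap k K z) < ε := by
  obtain ⟨η, hη0, hη⟩ := exists_small_elt (Sum.inl v : Pl k) one_pos
  have h1 : plAbv (Sum.inl P : Pl K) (algebraMap k K η) < 1 := by
    rw [plAbv_lt_one, val_lt_one_iff hP, ← plAbv_lt_one]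
    exact hη
  obtain ⟨n, hn⟩ := exists_pow_lt_of_lt_one hε h1
  refine ⟨plAbv (Sum.inl v : Pl k) (η ^ n),
    (plAbv (Sum.inl v : Pl k)).pos (pow_ne_zero n hη0), fun z hz => ?_⟩
  rw [plAbv_lt, ← val_lt_val_iff hP, ← plAbv_lt, map_pow, map_pow] at hz
  exact hz.trans hn

/-- The restriction of a place. -/
noncomputable def rsP (k : Type) {K : Type} [Field k] [NumberField k] [Field K] [NumberField K]
    [Algebra k K] : PA K → PA k
  | .inl P => .inl (Arith.exists_below (F := k) P).choose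
  | .inr u => .inr (u.comap (algebraMap k K))

theorem rsP_inl {v : HeightOneSpectrum (𝓞 k)} {P : HeightOneSpectrum (𝓞 K)}
    (hP : P.asIdeal.comap (algebraMap (𝓞 k) (𝓞 K)) = v.asIdeal) :
    rsP k (Sum.inl P : PA K) = Sum.inl v :=
  congrArg Sum.inl (below_unique (Arith.exists_below (F := k) P).choose_spec hP)

theorem rsP_mem {V : Set (HeightOneSpectrum (𝓞 k))} {Q : PA K} (hQ : Q ∈ TS (ov K V)) :
    rsP k Q ∈ TS V := by
  rcases Q with P | u
  · obtain ⟨v, hv, hP⟩ := inl_mem_TS.mp hQ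
    rw [rsP_inl hP]
    exact inl_mem_TS.mpr hv
  · exact inr_mem_TS

theorem rsP_cont (Q : PA K) {ε : ℝ} (hε : 0 < ε) : ∃ δ : ℝ, 0 < δ ∧ ∀ z : k,
    paAbv (rsP k Q) z < δ → paAbv Q (algebraMap k K z) < ε := by
  rcases Q with P | u
  · obtain ⟨v, hP⟩ := Arith.exists_below (F := k) P
    rw [rsP_inl hP]
    exact exists_delta_over hP hε
  · exact ⟨ε, hε, fun z hz => hz⟩

/-- Limits are preserved. -/
theorem AE_map {X : Type} {F : Filter X} {Q : PA K} {f : X → k} {x : k}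
    (h : AE {paAbv (rsP k Q)} F f x) :
    AE {paAbv Q} F (fun n => algebraMap k K (f n)) (algebraMap k K x) := by
  intro p hp
  rw [Set.mem_singleton_iff.1 hp]
  have h1 := h _ rfl
  rw [Metric.tendsto_nhds]
  intro ε hε
  obtain ⟨δ, hδ, h2⟩ := rsP_cont (k := k) Q hε
  filter_upwards [h1.eventually (gt_mem_nhds hδ)] with v hv
  rw [Real.dist_eq, sub_zero, abs_of_nonneg ((paAbv Q).nonneg _), ← map_sub]
  exact h2 _ hv

end rs

section seq

variable {k : Type} [Field k] [NumberField k]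

omit [NumberField k] in
theorem AE_of_lt {S : Set (AbsoluteValue k ℝ)} {f : ℕ → k} {x : k}
    (h : ∀ n, ∀ p ∈ S, p (f n - x) < 1 / ((n : ℝ) + 1)) : AE S atTop f x := fun p hp =>
  squeeze_zero (fun _ => p.nonneg _) (fun n => (h n p hp).le) tendsto_one_div_add_atTop_nhds_zero_nat

/-- Weak approximation by sequences. -/
theorem exists_seqA {T : Set (PA k)} (hT : T.Finite) (z : PA k → k) :
    ∃ f : ℕ → k, ∀ p ∈ T, AE {paAbv p} atTop f (z p) := by
  have h1 : ∀ n : ℕ, ∃ f : k, ∀ p ∈ T, paAbv p (f - z p) < 1 / ((n : ℝ) + 1) := fun n =>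
    approxA T hT z (fun _ => 1 / ((n : ℝ) + 1)) fun _ => Nat.one_div_pos_of_nat
  choose f hf using h1
  refine ⟨f, fun p hp => AE_of_lt fun n p' hp' => ?_⟩
  rw [Set.mem_singleton_iff.1 hp']
  exact hf n p hp

end seq

end Vale.Agent.P011.D4W.H619
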