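import Vale.Agent.P011.D4W.H619.Alg
import Vale.Agent.P011.D4W.H619.Rs

/-!
Block D4W (helper619): the parameters.
-/

open NumberField IsDedekindDomain Topology Filter

namespace Vale.Agent.P011.D4W.H619

open Vale.Agent.P011.Arith Vale.Agent.P011.MPQ Vale.Agent.P011.D4 Vale.Agent.P011.D4X
  Vale.Agent.P011.D4Y Vale.Agent.P011.D4W.H183

section par

variable {k : Type} [Field k] [NumberField k]

omit [NumberField k] in
theorem AE_np {X : Type} {S : Set (AbsoluteValue k ℝ)} {F : Filter X} {x y : X → k} {x' y' : k}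
    (b : kˣ) (e1 e2 : k) (hx : AE S F x x') (hy : AE S F y y') :
    AE S F (fun n => np b e1 e2 (x n) (y n)) (np b e1 e2 x' y') := by
  have hb := AE.const S F (b : k)
  have h1 := AE.const S F e1
  have h2 := AE.const S F e2
  exact (((hx.pow 6).sub (((h1.mul hb).mul (hx.pow 4)).mul (hy.pow 2))).add
    (((h2.mul (hb.pow 2)).mul (hx.pow 2)).mul (hy.pow 4))).sub ((hb.pow 3).mul (hy.pow 6))

/-- The parameters, close to given ones. -/
theorem exists_par {V : Set (HeightOneSpectrum (𝓞 k))} (hV : V.Finite) (a b : kˣ) (e1 e2 : k)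
    (tx ty ts : PA k → k) (tg : PA k → Qt a b)
    (ht : ∀ p ∈ TS V, nrd (tg p) * (np b e1 e2 (tx p) (ty p) * ts p ^ 2) = 1) {ε : ℝ}
    (hε : 0 < ε) : ∃ (x y s : k) (w : Qt a b), nrd w * (np b e1 e2 x y * s ^ 2) = 1 ∧
      ∀ p ∈ TS V, paAbv p (x - tx p) < ε ∧ paAbv p (y - ty p) < ε ∧ paAbv p (s - ts p) < ε ∧
        paAbv p (w.re - (tg p).re) < ε ∧ paAbv p (w.imI - (tg p).imI) < ε ∧
        paAbv p (w.imJ - (tg p).imJ) < ε ∧ paAbv p (w.imK - (tg p).imK) < ε := by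
  have hT := TS_finite hV
  obtain ⟨δ, hδ, h⟩ := nrd_near_of hV a b tg (fun p hp => left_ne_zero_of_mul_eq_one (ht p hp)) hε
  obtain ⟨x, hx⟩ := exists_seqA hT tx
  obtain ⟨y, hy⟩ := exists_seqA hT ty
  obtain ⟨s, hs⟩ := exists_seqA hT ts
  have hμ : ∀ p ∈ TS V, AE {paAbv p} atTop
      (fun n => (np b e1 e2 (x n) (y n) * s n ^ 2)⁻¹) (nrd (tg p)) := by
    intro p hp
    have h1 := ((AE_np b e1 e2 (hx p hp) (hy p hp)).mul ((hs p hp).pow 2)).inv
      (right_ne_zero_of_mul_eq_one (ht p hp))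
    rwa [← eq_inv_of_mul_eq_one_left (ht p hp)] at h1
  obtain ⟨u⟩ : Nonempty (InfinitePlace k) := inferInstance
  have e1' : ∀ᶠ n in atTop, ∀ p ∈ TS V,
      paAbv p ((np b e1 e2 (x n) (y n) * s n ^ 2)⁻¹ - nrd (tg p)) < δ := by
    rw [eventually_all_finite hT]
    exact fun p hp => (hμ p hp).eventually_lt rfl hδ
  have e2' : ∀ᶠ n in atTop, ∀ p ∈ TS V, paAbv p (x n - tx p) < ε := by
    rw [eventually_all_finite hT]
    exact fun p hp => (hx p hp).eventually_lt rfl hε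
  have e3' : ∀ᶠ n in atTop, ∀ p ∈ TS V, paAbv p (y n - ty p) < ε := by
    rw [eventually_all_finite hT]
    exact fun p hp => (hy p hp).eventually_lt rfl hε
  have e4' : ∀ᶠ n in atTop, ∀ p ∈ TS V, paAbv p (s n - ts p) < ε := by
    rw [eventually_all_finite hT]
    exact fun p hp => (hs p hp).eventually_lt rfl hε
  have e5' := (hμ (Sum.inr u) inr_mem_TS).eventually_ne (Set.singleton_nonempty _)
    (left_ne_zero_of_mul_eq_one (ht (Sum.inr u) inr_mem_TS))
  obtain ⟨n, h1, h2, h3, h4, h5⟩ := (e1'.and (e2'.and (e3'.and (e4'.and e5')))).exists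
  obtain ⟨w, hw, hw'⟩ := h _ h1
  refine ⟨x n, y n, s n, w, ?_, fun p hp => ⟨h2 p hp, h3 p hp, h4 p hp, hw' p hp⟩⟩
  rw [hw]
  exact inv_mul_cancel₀ fun h0 => h5 (by rw [h0, inv_zero])

/-- The sequences of parameters. -/
theorem exists_pars {V : Set (HeightOneSpectrum (𝓞 k))} (hV : V.Finite) (a b : kˣ) (e1 e2 : k)
    (tx ty ts : PA k → k) (tg : PA k → Qt a b)
    (ht : ∀ p ∈ TS V, nrd (tg p) * (np b e1 e2 (tx p) (ty p) * ts p ^ 2) = 1) :
    ∃ (x y s : ℕ → k) (w : ℕ → Qt a b),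
      (∀ n, nrd (w n) * (np b e1 e2 (x n) (y n) * s n ^ 2) = 1) ∧
      ∀ p ∈ TS V, AE {paAbv p} atTop x (tx p) ∧ AE {paAbv p} atTop y (ty p) ∧
        AE {paAbv p} atTop s (ts p) ∧ AE {paAbv p} atTop (fun n => (w n).re) (tg p).re ∧
        AE {paAbv p} atTop (fun n => (w n).imI) (tg p).imI ∧
        AE {paAbv p} atTop (fun n => (w n).imJ) (tg p).imJ ∧
        AE {paAbv p} atTop (fun n => (w n).imK) (tg p).imK := by
  choose x y s w h1 h2 using fun n : ℕ => exists_par hV a b e1 e2 tx ty ts tg ht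
    (ε := 1 / ((n : ℝ) + 1)) Nat.one_div_pos_of_nat
  refine ⟨x, y, s, w, h1, fun p hp => ?_⟩
  have key : ∀ {f : ℕ → k} {z : k}, (∀ n : ℕ, paAbv p (f n - z) < 1 / ((n : ℝ) + 1)) →
      AE {paAbv p} atTop f z := fun h => AE_of_lt fun n p' hp' => by
    rw [Set.mem_singleton_iff.1 hp']
    exact h n
  exact ⟨key fun n => (h2 n p hp).1, key fun n => (h2 n p hp).2.1,
    key fun n => (h2 n p hp).2.2.1, key fun n => (h2 n p hp).2.2.2.1,
    key fun n => (h2 n p hp).2.2.2.2.1, key fun n => (h2 n p hp).2.2.2.2.2.1,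
    key fun n => (h2 n p hp).2.2.2.2.2.2⟩

end par

end Vale.Agent.P011.D4W.H619
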