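import Vale.Agent.P011.D4W.H619.Alg

/-!
Block D4W (helper619): the frame `(i, l, j)`.
-/

open NumberField

set_option linter.unusedSectionVars false

namespace Vale.Agent.P011.D4W.H619

open Vale.Agent.P011.MPQ Vale.Agent.P011.D4 Vale.Agent.P011.D4.Oct Vale.Agent.P011.D4X
  Vale.Agent.P011.D4Y Vale.Agent.P011.E6

section quat

variable {E : Type} [Field E] {a c : Eˣ}

theorem Xe_sandwich {α : E} (h2 : (2 : E) ≠ 0) (hα : α * α = a) (q0 q2 x y : E) :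
    Xe a c α q0 x y * ⟨0, 0, 1 / 2, 1 / (2 * α)⟩ * star (Xe a c α q2 x y) =
      ⟨0, -(x * y * c) / α, (x ^ 2 - y ^ 2 * c) / 2, (x ^ 2 + y ^ 2 * c) / (2 * α)⟩ := by
  have hα0 : α ≠ 0 := by
    rintro rfl
    rw [mul_zero] at hα
    exact a.ne_zero hα.symm
  apply QuaternionAlgebra.ext
  · simp [Xe, ← hα]
    field_simp
    ring
  · simp [Xe, ← hα]
    field_simp
    ring
  · simp [Xe, ← hα]
    field_simp
    ring
  · simp [Xe, ← hα]
    field_simp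
    ring

theorem emb_swap_vec {b : Eˣ} (p r s : E) :
    emb gi gl gj (⟨⟨0, p, r, s⟩, 0⟩ : Oct a c b) = (⟨⟨0, p, 0, 0⟩, ⟨r, s, 0, 0⟩⟩ : Oct a b c) := by
  apply ext8 <;> simp [emb, qemb, gi, gj, gl]

end quat

section trip

variable {k E : Type} [Field k] [Field E] [Algebra k E] [NeZero (2 : E)] {a b c : kˣ}

theorem tripO_swap_vec (h : Trip a c b (gi : Oct a b c) gl gj) (p r s : E) :
    tripO E h ⟨⟨0, p, r, s⟩, 0⟩ = (⟨⟨0, p, 0, 0⟩, ⟨r, s, 0, 0⟩⟩ : OctL E a b c) := by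
  rw [tripO_apply, oup_gi, oup_gj, oup_gl]
  exact emb_swap_vec p r s

end trip

end Vale.Agent.P011.D4W.H619
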